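import Vale.Agent.H29.BlochDefs.Defs
import Vale.Agent.H29.Bloch.Final

namespace Vale.Agent.Results.P361.BlochLower

open Vale.Agent.H29.BlochDefs Filter

/-- The sharp lower half of Bloch's law, for every spin `S = J / 2 ≥ 1 / 2`. -/
theorem result (J : ℕ) (hJ : 0 < J) :
    (∀ β : ℝ, 0 < β → ConvexOn ℝ Set.univ (pres J β) ∧
      HasDerivWithinAt (pres J β) (spMag J β) (Set.Ioi 0) 0) ∧
    ∀ c : ℝ, c < (riemannZeta (3 / 2)).re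
        / (8 * Real.pi ^ (3 / 2 : ℝ) * ((J : ℝ) / 2) ^ (3 / 2 : ℝ)) →
      ∀ᶠ β : ℝ in atTop, c ≤ β ^ (3 / 2 : ℝ) * ((J : ℝ) / 2 - spMag J β) :=
  ⟨fun _ hβ => ⟨Vale.Agent.H29.Bloch.pres_convex hβ, Vale.Agent.H29.Bloch.hasDeriv hβ⟩,
    fun _ hc => Vale.Agent.H29.Bloch.bloch_lower hJ hc⟩

end Vale.Agent.Results.P361.BlochLower
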